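import Vale.Agent.P196.Full.Tiles.Geom.Colour
import Vale.Agent.P196.Full.Tiles.Equations.Classes

/-!
# P196: the children along the border of a border tile

A parent lying on the side of its own block shows its children near that side only its signature,
and this only in the rows or columns of the central block; elsewhere they have no bits and the
geometry of one half of the side.
-/

namespace Vale.Agent.P196.Full.Tiles

attribute [local irreducible] K lvl

/-- A colour without value and without tag. -/
def Blank (g : GCol) : Prop := g.val = none ∧ g.tagA = none ∧ g.tagB = none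

/-- Values of the colours of a tile are at most one. -/
def SmallVals (T : Tile) : Prop := ∀ s w, (T.gs s).val = some w → w < 2

/-- The edges of the cell `(i, j)` are near a blank side of the parent. -/
def Strip (M : ℕ) (T : Tile) (i j : ℕ) : Prop :=
  SmallVals T ∧ ((j + K + 1 < M ∧ Blank T.d.g) ∨ (M + K + 1 < j ∧ Blank T.u.g) ∨
    (i + K + 1 < M ∧ Blank T.l.g) ∨ (M + K + 1 < i ∧ Blank T.r.g))

variable {F : (Sg → Bool) → Bool} {M i j : ℕ} {T : Tile}

theorem scanBit_small (v : Fin 4 → Option ℕ) (hv : ∀ s w, v s = some w → w < 2) (m : ℕ) {y : ℕ}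
    (hy : 2 ≤ y) (k : Fin 17) : scanBit v m y k = false := by
  have hseen : ∀ s, (v s).any (fun w => decide (y ≤ w)) = false := by
    intro s
    cases h : v s with
    | none => rfl
    | some w =>
      have := hv s w h
      simp
      omega
  have hlast : decide (∃ s, v s = some y) = false := by
    simp only [decide_eq_false_iff_not, not_exists]
    intro s h
    have := hv s y h
    omega
  have hy0 : decide (y = 0) = false := by simp; omega
  simp only [scanBit, hseen, hlast, hy0, Bool.false_and]
  split_ifs <;> rfl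

theorem fillH_strip (h : Strip M T i j) (l : HL) (hl : l ≠ .C) : fillH F M T i j l = false := by
  have := K_large
  obtain ⟨hv, hc⟩ := h
  have h0 : ∀ w, T.l.g.val = some w → w < 2 := hv 0
  have h1 : ∀ w, T.r.g.val = some w → w < 2 := hv 1
  have h2 : ∀ w, T.d.g.val = some w → w < 2 := hv 2
  have h3 : ∀ w, T.u.g.val = some w → w < 2 := hv 3
  simp only [Blank] at hc
  cases l with
  | C => exact absurd rfl hl
  | Mk =>
    simp only [fillH, Bool.and_eq_false_iff, decide_eq_false_iff_not]
    by_contra hcon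
    simp only [not_or, not_not] at hcon
    obtain ⟨ha, hb⟩ := hcon
    split_ifs at hb with hi
    · have := h0 _ hb
      rcases hc with ⟨hs, hbl⟩ | ⟨hs, hbl⟩ | ⟨hs, hbl⟩ | ⟨hs, hbl⟩ <;>
        first | omega | simp [hbl.1] at hb
    · have := h1 _ hb
      rcases hc with ⟨hs, hbl⟩ | ⟨hs, hbl⟩ | ⟨hs, hbl⟩ | ⟨hs, hbl⟩ <;>
        first | omega | simp [hbl.1] at hb
  | MD =>
    simp only [fillH, Bool.and_eq_false_iff, decide_eq_false_iff_not]
    by_contra hcon
    simp only [not_or, not_not] at hcon
    obtain ⟨⟨ha, hi⟩, hb⟩ := hcon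
    have := h2 _ hb
    rcases hc with ⟨hs, -⟩ | ⟨hs, -⟩ | ⟨hs, -⟩ | ⟨hs, -⟩ <;> omega
  | MU =>
    simp only [fillH, Bool.and_eq_false_iff, decide_eq_false_iff_not]
    by_contra hcon
    simp only [not_or, not_not] at hcon
    obtain ⟨⟨ha, hi⟩, hb⟩ := hcon
    have := h3 _ hb
    rcases hc with ⟨hs, -⟩ | ⟨hs, -⟩ | ⟨hs, -⟩ | ⟨hs, -⟩ <;> omega
  | A =>
    simp only [fillH, Bool.and_eq_false_iff, decide_eq_false_iff_not]
    by_contra hcon
    simp only [not_or, not_not, decide_eq_true_eq] at hcon
    obtain ⟨ha, hb⟩ := hcon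
    rcases hc with ⟨hs, hbl⟩ | ⟨hs, hbl⟩ | ⟨hs, hbl⟩ | ⟨hs, hbl⟩ <;>
      first
        | omega
        | (rw [if_pos (show i + 1 ≤ M + K by omega)] at hb; simp [hbl.2.1] at hb)
        | (rw [if_neg (show ¬ i + 1 ≤ M + K by omega)] at hb; simp [hbl.2.1] at hb)
  | B =>
    simp only [fillH, Bool.and_eq_false_iff, decide_eq_false_iff_not]
    by_contra hcon
    simp only [not_or, not_not, decide_eq_true_eq] at hcon
    obtain ⟨ha, hb⟩ := hcon
    rcases hc with ⟨hs, hbl⟩ | ⟨hs, hbl⟩ | ⟨hs, hbl⟩ | ⟨hs, hbl⟩ <;>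
      first
        | omega
        | (rw [if_pos (show i + 1 ≤ M + K by omega)] at hb; simp [hbl.2.2] at hb)
        | (rw [if_neg (show ¬ i + 1 ≤ M + K by omega)] at hb; simp [hbl.2.2] at hb)
  | _ =>
    simp only [fillH, Bool.and_eq_false_iff, decide_eq_false_iff_not]
    left
    rcases hc with ⟨hs, -⟩ | ⟨hs, -⟩ | ⟨hs, -⟩ | ⟨hs, -⟩ <;> omega

theorem fillV_strip (h : Strip M T i j) (l : VL) (hl : l ≠ .C) (hl' : l ≠ .Bus) :
    fillV F M T i j l = false := by
  have := K_large
  obtain ⟨hv, hc⟩ := h
  have h2 : ∀ w, T.d.g.val = some w → w < 2 := hv 2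
  have h3 : ∀ w, T.u.g.val = some w → w < 2 := hv 3
  simp only [Blank] at hc
  cases l with
  | C => exact absurd rfl hl
  | Bus => exact absurd rfl hl'
  | Mk =>
    simp only [fillV, Bool.and_eq_false_iff, decide_eq_false_iff_not]
    by_contra hcon
    simp only [not_or, not_not] at hcon
    obtain ⟨ha, hb⟩ := hcon
    split_ifs at hb with hi
    · have := h2 _ hb
      rcases hc with ⟨hs, hbl⟩ | ⟨hs, hbl⟩ | ⟨hs, hbl⟩ | ⟨hs, hbl⟩ <;>
        first | omega | simp [hbl.1] at hb
    · have := h3 _ hb
      rcases hc with ⟨hs, hbl⟩ | ⟨hs, hbl⟩ | ⟨hs, hbl⟩ | ⟨hs, hbl⟩ <;>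
        first | omega | simp [hbl.1] at hb
  | S k =>
    simp only [fillV, Bool.and_eq_false_iff, decide_eq_false_iff_not]
    by_contra hcon
    simp only [not_or, not_not] at hcon
    obtain ⟨ha, hb⟩ := hcon
    rcases hc with ⟨hs, -⟩ | ⟨hs, -⟩ | ⟨hs, -⟩ | ⟨hs, -⟩ <;>
      first | omega | exact hb (scanBit_small _ hv _ (by omega) _)
  | A =>
    simp only [fillV, Bool.and_eq_false_iff, decide_eq_false_iff_not]
    by_contra hcon
    simp only [not_or, not_not, decide_eq_true_eq] at hcon
    obtain ⟨ha, hb⟩ := hcon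
    rcases hc with ⟨hs, hbl⟩ | ⟨hs, hbl⟩ | ⟨hs, hbl⟩ | ⟨hs, hbl⟩ <;>
      first
        | omega
        | (rw [if_pos (show j + 1 ≤ M + K by omega)] at hb; simp [hbl.2.1] at hb)
        | (rw [if_neg (show ¬ j + 1 ≤ M + K by omega)] at hb; simp [hbl.2.1] at hb)
  | B =>
    simp only [fillV, Bool.and_eq_false_iff, decide_eq_false_iff_not]
    by_contra hcon
    simp only [not_or, not_not, decide_eq_true_eq] at hcon
    obtain ⟨ha, hb⟩ := hcon
    rcases hc with ⟨hs, hbl⟩ | ⟨hs, hbl⟩ | ⟨hs, hbl⟩ | ⟨hs, hbl⟩ <;>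
      first
        | omega
        | (rw [if_pos (show j + 1 ≤ M + K by omega)] at hb; simp [hbl.2.2] at hb)
        | (rw [if_neg (show ¬ j + 1 ≤ M + K by omega)] at hb; simp [hbl.2.2] at hb)
  | _ =>
    simp only [fillV, Bool.and_eq_false_iff, decide_eq_false_iff_not]
    left
    rcases hc with ⟨hs, -⟩ | ⟨hs, -⟩ | ⟨hs, -⟩ | ⟨hs, -⟩ <;> omega

theorem shown_congr {T T' : Tile} (h : sig F M T = sig F M T') (s : Fin 4) (b : ℕ) :
    shown T s b = shown T' s b := by
  have hs : ∀ t, T.sideBit s t = T'.sideBit s t := fun t => congrFun h (.side s t 0)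
  simp only [shown, hs]

/-- The two edges of a cell away from the centre in both coordinates have no bits. -/
theorem fill_plain (h : Strip M T i j) (hi : i + K + 1 < M ∨ M + K + 1 < i)
    (hj : j + K + 1 < M ∨ M + K + 1 < j) :
    fillH F M T i j = (fun _ => false) ∧ fillV F M T i j = fun _ => false := by
  refine ⟨funext fun l => ?_, funext fun l => ?_⟩
  · by_cases hl : l = .C
    · subst hl
      simp only [fillH, Bool.and_eq_false_iff, decide_eq_false_iff_not]
      left
      omega
    · exact fillH_strip h l hl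
  · by_cases hl : l = .C ∨ l = .Bus
    · rcases hl with rfl | rfl <;> simp only [fillV, Bool.and_eq_false_iff, decide_eq_false_iff_not]
      · left
        omega
      · left; left
        omega
    · exact fillV_strip h l (fun e => hl (.inl e)) fun e => hl (.inr e)

/-- The two edges of a cell depend on the signature alone. -/
theorem fill_congr {T' : Tile} (h : Strip M T i j) (h' : Strip M T' i j)
    (hsig : sig F M T = sig F M T') :
    fillH F M T i j = fillH F M T' i j ∧ fillV F M T i j = fillV F M T' i j := by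
  refine ⟨funext fun l => ?_, funext fun l => ?_⟩
  · by_cases hl : l = .C
    · subst hl
      simp only [fillH, shown_congr hsig]
    · rw [fillH_strip h l hl, fillH_strip h' l hl]
  · by_cases hl : l = .C ∨ l = .Bus
    · rcases hl with rfl | rfl
      · simp only [fillV, shown_congr hsig]
      · simp only [fillV, hsig]
    · rw [fillV_strip h l (fun e => hl (.inl e)) fun e => hl (.inr e),
        fillV_strip h' l (fun e => hl (.inl e)) fun e => hl (.inr e)]

theorem geoH_val_small (hi : i ≤ 2 * M) (hj : j < 2 * M)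
    (h : j = 0 ∨ j + 1 = 2 * M ∨ i ≤ 1 ∨ 2 * M ≤ i + 1) {w : ℕ}
    (hw : (geoH M i j).val = some w) : w < 2 := by
  cases hg : geoH M i j with
  | side z hb v =>
    rw [hg] at hw
    obtain rfl : v = w := Option.some.inj hw
    have := (geoH_side_iff hi hj z hb v).mp hg
    omega
  | _ => rw [hg] at hw; simp [GCol.val] at hw

/-- Child coordinates along and across an axis. -/
noncomputable def cchild (ax : Bool) (F : (Sg → Bool) → Bool) (M : ℕ) (T : Tile) (i j : ℕ) : Tile :=
  if ax then child F M T j i else child F M T i j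

/-- The geometry of a cell without bits. -/
noncomputable def plain (M i j : ℕ) : Tile where
  l := ⟨geoH M i j, fun _ => false⟩
  r := ⟨geoH M (i + 1) j, fun _ => false⟩
  d := ⟨geoV M i j, fun _ => false⟩
  u := ⟨geoV M i (j + 1), fun _ => false⟩

/-- The same along an axis. -/
noncomputable def cplain (ax : Bool) (M i j : ℕ) : Tile := if ax then plain M j i else plain M i j

theorem smallVals_border (G : Tile) (ax : Bool) {M' i' j' : ℕ} (hi : i' < 2 * M')
    (hj : j' = 0 ∨ j' + 1 = 2 * M') : SmallVals (cchild ax F M' G i' j') := by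
  intro s w hw
  cases ax <;> fin_cases s <;>
    simp only [Tile.gs, Matrix.cons_val_zero, Matrix.cons_val_one, Matrix.cons_val_two,
      Matrix.cons_val_three, Matrix.head_cons, Matrix.tail_cons, Fin.mk_zero, Fin.mk_one,
      Fin.reduceFinMk, cchild, child, if_true, Bool.false_eq_true, if_false, geoV,
      GCol.tr_val] at hw <;>
    exact geoH_val_small (by omega) (by omega) (by omega) hw

theorem blank_outer (k : Fin 4) : Blank (.outer k) := ⟨rfl, rfl, rfl⟩

theorem blank_of_left {M' i' j' : ℕ} (h : i' = 0 ∨ i' = 2 * M') : Blank (geoH M' i' j') := by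
  rw [Geo.geoH_outer h]
  exact blank_outer _

theorem blank_of_bottom {M' i' j' : ℕ} (h : j' = 0 ∨ j' = 2 * M') : Blank (geoV M' i' j') := by
  rw [geoV, Geo.geoH_outer h]
  exact blank_outer _

/-- The row `b` is near the side on which the row `j'` of the parent lies. -/
def Near (M M' j' b : ℕ) : Prop :=
  (j' = 0 ∧ b + K + 3 < M) ∨ (j' + 1 = 2 * M' ∧ M + K + 3 < b)

theorem strip_border (G : Tile) (ax : Bool) {M' i' j' b a x y : ℕ} (hi : i' < 2 * M')
    (hn : Near M M' j' b) (hx : x = a ∨ x = a + 1) (hy : y = b ∨ y = b + 1) :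
    Strip M (cchild ax F M' G i' j') (if ax then y else x) (if ax then x else y) := by
  refine ⟨smallVals_border G ax hi (hn.imp (·.1) (·.1)), ?_⟩
  cases ax <;> rcases hn with ⟨rfl, hb⟩ | ⟨hj, hb⟩
  · exact Or.inl ⟨by simp; omega, blank_of_bottom (.inl rfl)⟩
  · exact Or.inr (.inl ⟨by simp; omega, blank_of_bottom (.inr (by omega))⟩)
  · exact Or.inr (.inr (.inl ⟨by simp; omega, blank_of_left (.inl rfl)⟩))
  · exact Or.inr (.inr (.inr ⟨by simp; omega, blank_of_left (.inr (by omega))⟩))

theorem cchild_congr (G G' : Tile) (ax : Bool) {M' i₁ i₂ j' a b : ℕ} (h₁ : i₁ < 2 * M')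
    (h₂ : i₂ < 2 * M') (hn : Near M M' j' b)
    (hsig : sig F M (cchild ax F M' G i₁ j') = sig F M (cchild ax F M' G' i₂ j')) :
    cchild ax F M (cchild ax F M' G i₁ j') a b = cchild ax F M (cchild ax F M' G' i₂ j') a b := by
  have key : ∀ x y, (x = a ∨ x = a + 1) → (y = b ∨ y = b + 1) → _ := fun x y hx hy =>
    fill_congr (strip_border (F := F) G ax h₁ hn hx hy) (strip_border G' ax h₂ hn hx hy) hsig
  cases ax
  · simp only [Bool.false_eq_true, if_false] at key
    show child F M _ a b = child F M _ a b
    simp only [child, (key a b (.inl rfl) (.inl rfl)).1, (key (a + 1) b (.inr rfl) (.inl rfl)).1,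
      (key a b (.inl rfl) (.inl rfl)).2, (key a (b + 1) (.inl rfl) (.inr rfl)).2]
  · simp only [if_true] at key
    show child F M _ b a = child F M _ b a
    simp only [child, (key a b (.inl rfl) (.inl rfl)).1, (key a (b + 1) (.inl rfl) (.inr rfl)).1,
      (key a b (.inl rfl) (.inl rfl)).2, (key (a + 1) b (.inr rfl) (.inl rfl)).2]

theorem cchild_plain (G : Tile) (ax : Bool) {M' i' j' a b : ℕ} (h₁ : i' < 2 * M')
    (hn : Near M M' j' b) (ha : a + K + 3 < M ∨ M + K + 3 < a) :
    cchild ax F M (cchild ax F M' G i' j') a b = cplain ax M a b := by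
  have hb := hn.imp And.right And.right
  have key : ∀ x y, (hx : x = a ∨ x = a + 1) → (hy : y = b ∨ y = b + 1) → _ := fun x y hx hy =>
    fill_plain (F := F) (strip_border (F := F) G ax h₁ hn hx hy) (by cases ax <;> simp <;> omega)
      (by cases ax <;> simp <;> omega)
  cases ax
  · simp only [Bool.false_eq_true, if_false] at key
    show child F M _ a b = plain M a b
    simp only [child, plain, (key a b (.inl rfl) (.inl rfl)).1,
      (key (a + 1) b (.inr rfl) (.inl rfl)).1,
      (key a b (.inl rfl) (.inl rfl)).2, (key a (b + 1) (.inl rfl) (.inr rfl)).2]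
  · simp only [if_true] at key
    show child F M _ b a = plain M b a
    simp only [child, plain, (key a b (.inl rfl) (.inl rfl)).1,
      (key a (b + 1) (.inl rfl) (.inr rfl)).1,
      (key a b (.inl rfl) (.inl rfl)).2, (key (a + 1) b (.inr rfl) (.inl rfl)).2]

/-- The cell `a` is away from the two ends of the row `b` near a side. -/
def InRow (M a b : ℕ) : Prop :=
  (b + K + 3 < M ∧ b + 1 < a ∧ a + b + 2 < 2 * M) ∨
    (M + K + 3 < b ∧ b < 2 * M ∧ 2 * M < a + b ∧ a + 1 < b)

/-- Along each half of a side the geometry is constant. -/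
theorem geo_congr (hM : 4 * K ≤ M) {a a' b : ℕ} (h : InRow M a b) (h' : InRow M a' b)
    (hm : a + 1 < M ↔ a' + 1 < M) (ha : a + 1 < M ∨ M + 1 < a) (ha' : a' + 1 < M ∨ M + 1 < a') :
    plain M a b = plain M a' b ∧ plain M b a = plain M b a' := by
  have := K_large
  have outV : ∀ x : ℕ, 0 < x → x + 1 < 2 * M → Geo.outK M x = if x < M then 2 else 3 := by
    intro x h0 h1
    unfold Geo.outK
    rw [if_neg (by omega), if_neg (by omega)]
  have hH : ∀ x x', (x = a ∧ x' = a' ∨ x = a + 1 ∧ x' = a' + 1) →
      geoH M x b = geoH M x' b := by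
    rintro x x' (⟨rfl, rfl⟩ | ⟨rfl, rfl⟩) <;> rcases h with h | h <;> rcases h' with h' | h' <;>
      first
        | omega
        | (rw [Geo.geoH_bottom (by omega) (by omega) (by omega),
            Geo.geoH_bottom (by omega) (by omega) (by omega)]
           congr 1
           exact decide_eq_decide.2 (by omega))
        | (rw [Geo.geoH_top (by omega) (by omega) (by omega) (by omega),
            Geo.geoH_top (by omega) (by omega) (by omega) (by omega)]
           congr 1
           exact decide_eq_decide.2 (by omega))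
  have hV : ∀ y, (y = b ∨ y = b + 1) → geoH M y a = geoH M y a' := by
    intro y hy
    by_cases hy0 : y = 0 ∨ y = 2 * M
    · rw [Geo.geoH_outer hy0, Geo.geoH_outer hy0, outV a (by rcases h with h | h <;> omega) (by rcases h with h | h <;> omega),
        outV a' (by rcases h' with h' | h' <;> omega) (by rcases h' with h' | h' <;> omega)]
      congr 1
      by_cases e : a < M
      · rw [if_pos e, if_pos (by omega)]
      · rw [if_neg e, if_neg (by omega)]
    · rcases h with h | h <;> rcases h' with h' | h' <;>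
        first
          | omega
          | (rw [Geo.geoH_left (by omega) (by omega) (by omega) (by omega),
              Geo.geoH_left (by omega) (by omega) (by omega) (by omega)]
             congr 1
             exact decide_eq_decide.2 (by omega))
          | (rw [Geo.geoH_right (by omega) (by omega) (by omega) (by omega),
              Geo.geoH_right (by omega) (by omega) (by omega) (by omega)]
             congr 1
             exact decide_eq_decide.2 (by omega))
  constructor <;>
    simp only [plain, geoV, hH a a' (.inl ⟨rfl, rfl⟩), hH (a + 1) (a' + 1) (.inr ⟨rfl, rfl⟩),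
      hV b (.inl rfl), hV (b + 1) (.inr rfl)]

theorem cplain_congr (hM : 4 * K ≤ M) (ax : Bool) {a a' b : ℕ} (h : InRow M a b)
    (h' : InRow M a' b) (hm : a + 1 < M ↔ a' + 1 < M) (ha : a + 1 < M ∨ M + 1 < a)
    (ha' : a' + 1 < M ∨ M + 1 < a') : cplain ax M a b = cplain ax M a' b := by
  cases ax
  · exact (geo_congr hM h h' hm ha ha').1
  · exact (geo_congr hM h h' hm ha ha').2

end Vale.Agent.P196.Full.Tiles
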